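import Vale.Agent.P196.H513.FinalMod
import Vale.Agent.P196.Cut.Fact
import Vale.Agent.P196.Cut.StmtC979
import Vale.Agent.P196.Cut.StmtE
import Vale.Agent.P196.Cut.StmtF
import Vale.Agent.P196.H697.StmtA
import Vale.Agent.P196.H798.Dec4

/-!
# P196: an infinite finitely presented simple amenable group
-/

namespace Vale.Agent.Results.P196.Existence

open Vale.Agent.P196

/-- There is a group that is infinite, finitely presented, simple and amenable. -/
theorem result : ∃ (G : Type) (_ : Group G), Infinite G ∧ Group.IsFinitelyPresented G ∧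
    IsSimpleGroup G ∧ Vale.Agent.P196.IsAmenable G :=
  H513.final_mod (H798.stmtDec (Fin 12))
    (Cut.fact_of H697.stmtB Cut.stmtC979 Cut.stmtE Cut.stmtF) H697.stmtB Cut.stmtC979

end Vale.Agent.Results.P196.Existence
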