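import Vale.Agent.P196.H370.Main
import Vale.Agent.P196.H370.Bridge
import Vale.Agent.P196.H476.Mean
import Vale.Agent.P196.H476.Line

/-!
# P196: a finitely presented infinite simple amenable group of permutations of the plane lattice
-/

namespace Vale.Agent.Results.P196.PlanarPermutations

open Vale.Agent.P196.H370

open Classical in
/-- There is a finitely presented infinite simple amenable group `G` with the properties
(a)-(e), and (b) is sharp. -/
theorem result :
    (∃ (G : Type) (_ : Group G),
      -- finitely presented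
      (∃ (n : ℕ) (R : Set (FreeGroup (Fin n))), R.Finite ∧ Nonempty (PresentedGroup R ≃* G)) ∧
      -- infinite, simple
      Infinite G ∧ IsSimpleGroup G ∧
      -- amenable (Foelner)
      (∀ (K : Finset G) (ε : ℝ), 0 < ε → ∃ D : Finset G, D.Nonempty ∧
        ∀ g ∈ K, ((symmDiff (D.image fun x => g * x) D).card : ℝ) < ε * D.card) ∧
      -- (a) an invariant mean
      (∃ μ : Set G → ℝ, (∀ A, 0 ≤ μ A) ∧ μ Set.univ = 1 ∧
        (∀ A B, Disjoint A B → μ (A ∪ B) = μ A + μ B) ∧
        ∀ (g : G) (A : Set G), μ ((fun x => g * x) '' A) = μ A) ∧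
      -- (b) a faithful action on `ℤ²` by permutations of bounded displacement
      (∃ φ : G →* Equiv.Perm (ℤ × ℤ), Function.Injective φ ∧
        ∀ g, ∃ r : ℤ, ∀ x, |(φ g x).1 - x.1| ≤ r ∧ |(φ g x).2 - x.2| ≤ r) ∧
      -- (c) the regular wreath product of `G` with any finite group embeds in `G`
      (∀ (Q : Type) [Group Q] [Finite Q], Embeds (RegularWreathProduct G Q) G) ∧
      -- (d) the free abelian groups, and all finite extensions of subgroups of `G`, embed in `G`
      (∀ d : ℕ, Embeds (Multiplicative (Fin d → ℤ)) G) ∧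
      (∀ (L : Type) [Group L] (K : Subgroup L), K.FiniteIndex → Embeds K G → Embeds L G) ∧
      -- (e)
      ¬ ElementaryAmenable G ∧ ¬ LocallyEmbeddableIntoFinite G) ∧
    -- no finitely presented infinite simple group acts on `ℤ` in this way
    (∀ (G : Type) [Group G], Infinite G → Group.IsFinitelyPresented G → IsSimpleGroup G →
      ∀ φ : G →* Equiv.Perm ℤ, (∀ g, ∃ r : ℤ, ∀ x, |φ g x - x| ≤ r) → φ = 1) := by
  refine ⟨⟨GG, inferInstance, exists_pres GG gg_fp, gg_infinite, gg_simple, gg_amenable,
    Vale.Agent.P196.H476.mean_of_foelner GG gg_amenable, wobbling _, fun Q _ _ => gg_wreath Q,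
    fun d => ?_, fun L _ K _ ⟨f, hf⟩ => of_finite_index (fun Q _ _ => gg_wreath Q) L K f hf,
    ?_, not_lef GG gg_fp gg_simple gg_infinite⟩,
    fun G _ hi hfp hs φ hφ => Vale.Agent.P196.H476.no_line G hfp hs hi φ hφ⟩
  · obtain ⟨g, hg⟩ := gg_infinite_order
    exact free_abelian (fun Q _ _ => gg_wreath Q) g hg d
  · obtain ⟨n, π, hπ, -⟩ := gg_fp.out
    exact not_ea GG (Group.fg_of_surjective hπ) gg_simple gg_infinite

end Vale.Agent.Results.P196.PlanarPermutations
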