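import Vale.Agent.P196.H783.Final
import Vale.Agent.P196.H964.AMFinal

/-!
# P196: a finitely presented perfect amenable group, infinite and simple modulo its centre
-/

namespace Vale.Agent.Results.P196.QuasiSimple

/-- There is a finitely presented perfect amenable group `H` such that `H / Z(H)` is infinite and
simple. -/
theorem result : ∃ (H : Type) (_ : Group H), Group.IsFinitelyPresented H ∧
    Vale.Agent.P196.IsAmenable H ∧ commutator H = ⊤ ∧ Infinite (H ⧸ Subgroup.center H) ∧
    IsSimpleGroup (H ⧸ Subgroup.center H) :=
  Vale.Agent.P196.H783.intermediate_of (ι := Fin 12) (by simp)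
    (Vale.Agent.P196.H964.isAmenable_grp_wang (Fin 12))

end Vale.Agent.Results.P196.QuasiSimple
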